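import Vale.Agent.P227.Log3.Shadow

/-!
# P227: no configuration is worst with a parameter below `1 / 2`

Let `p`, `q` be the facets where the worst function `φ` is largest and smallest, `w = ν p × ν q`
and `a k = |ν k ⬝ w|`. The area of the shadow along `w` is concave in the directions `φ - φ p`,
`φ - φ q` and monotone, and the local functional is stationary along `1 - ε a`. The three facts
are inconsistent below `1 / 2`.
-/

namespace Vale.Agent.P227.Log3

open MeasureTheory Set Filter Topology Matrix Function Lp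

noncomputable section

variable {N : ℕ} {ν : Fin N → V3}

/-- The agreement set of a form is closed among the points with all facets present. -/
theorem agrees_of_frequently (h1 : Calc1 ν) (h2 : Calc2 ν) {C : Fin N → Fin N → Fin N → ℝ}
    {h : Fin N → ℝ} (hh : Full ν h) (ha : ∃ᶠ g in 𝓝 h, Agrees ν C g) : Agrees ν C h := by
  refine ⟨?_, fun i => ?_, fun i j => ?_⟩
  · have hr : ContinuousAt (fun x => tri C x x x) h :=
      tri_continuousAt C (f := fun x => x) (g := fun x => x) (k := fun x => x) continuousAt_id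
        continuousAt_id continuousAt_id
    exact tendsto_nhds_unique_of_frequently_eq (h1.hasFDeriv h hh.1).continuousAt.tendsto
      hr.tendsto (ha.mono fun x hx => hx.1)
  · have hr : ContinuousAt (fun x => tri C (Pi.single i 1) x x) h :=
      tri_continuousAt C (f := fun _ => Pi.single i 1) (g := fun x => x) (k := fun x => x)
        continuousAt_const continuousAt_id continuousAt_id
    exact tendsto_nhds_unique_of_frequently_eq (h1.grad_continuous h hh.1 i).tendsto
      (hr.tendsto.const_mul 3) (ha.mono fun x hx => hx.2.1 i)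
  · have hr : ContinuousAt (fun x => tri C (Pi.single i 1) (Pi.single j 1) x) h :=
      tri_continuousAt C (f := fun _ => Pi.single i 1) (g := fun _ => Pi.single j 1)
        (k := fun x => x) continuousAt_const continuousAt_const continuousAt_id
    exact tendsto_nhds_unique_of_frequently_eq (h2.continuous h hh i j).tendsto
      (hr.tendsto.const_mul 6) (ha.mono fun x hx => hx.2.2 i j)

/-- A finite family covering an open set agrees on a neighbourhood of one of its points. -/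
theorem exists_interior (h1 : Calc1 ν) (h2 : Calc2 ν)
    (T : Finset (Fin N → Fin N → Fin N → ℝ)) :
    ∀ O : Set (Fin N → ℝ), IsOpen O → O.Nonempty → (∀ h ∈ O, Full ν h) →
      (∀ h ∈ O, ∃ C ∈ T, Agrees ν C h) → ∃ C ∈ T, ∃ g ∈ O, ∀ᶠ g' in 𝓝 g, Agrees ν C g' := by
  classical
  induction T using Finset.induction_on with
  | empty =>
    intro O _ ⟨g, hg⟩ _ hcov
    obtain ⟨C, hC, -⟩ := hcov g hg
    simp at hC
  | insert D T hD ih =>
    intro O hO hne hfull hcov
    set O' := {h ∈ O | ¬ Agrees ν D h}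
    by_cases hne' : O'.Nonempty
    · have hO' : IsOpen O' := by
        refine isOpen_iff_mem_nhds.2 fun h hh => ?_
        have : ∀ᶠ g in 𝓝 h, ¬ Agrees ν D g := by
          by_contra hno
          rw [not_eventually] at hno
          exact hh.2 (agrees_of_frequently h1 h2 (hfull h hh.1)
            (hno.mono fun g hg => not_not.1 hg))
        exact (hO.eventually_mem hh.1).and this
      obtain ⟨C, hC, g, hg, hev⟩ := ih O' hO' hne' (fun h hh => hfull h hh.1) fun h hh => by
        obtain ⟨C, hC, hA⟩ := hcov h hh.1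
        exact ⟨C, (Finset.mem_insert.1 hC).resolve_left fun e => hh.2 (e ▸ hA), hA⟩
      exact ⟨C, Finset.mem_insert_of_mem hC, g, hg.1, hev⟩
    · obtain ⟨g, hg⟩ := hne
      refine ⟨D, Finset.mem_insert_self _ _, g, hg, ?_⟩
      filter_upwards [hO.eventually_mem hg] with g' hg'
      by_contra h
      exact hne' ⟨g', hg', h⟩

/-- A form agreeing near points following the curve `1 - ε a` to second order. -/
theorem exists_open_germ (h1 : Calc1 ν) (h2 : Calc2 ν) (hF : Full ν 1) (a : Fin N → ℝ) :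
    ∃ C, SymC C ∧ ∃ G : ℝ → Fin N → ℝ, (∀ e, dist (G e) (1 - e • a) ≤ e ^ 2) ∧
      ∃ᶠ e in 𝓝[>] (0 : ℝ), Full ν (G e) ∧ ∀ᶠ g in 𝓝 (G e), Agrees ν C g := by
  classical
  obtain ⟨S, hS, hcov⟩ := h2.cubic
  have hc : ContinuousAt (fun e : ℝ => (1 : Fin N → ℝ) - e • a) 0 := by fun_prop
  have hev : ∀ᶠ e in 𝓝[>] (0 : ℝ), ∃ C ∈ S, ∃ g, dist g (1 - e • a) ≤ e ^ 2 ∧ Full ν g ∧
      ∀ᶠ g' in 𝓝 g, Agrees ν C g' := by
    filter_upwards [eventually_full h2 hF nhdsWithin_le_nhds hc (by simp),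
      self_mem_nhdsWithin] with e hfull (he : 0 < e)
    obtain ⟨C, hC, g, hg, hA⟩ := exists_interior h1 h2 S
      (Metric.ball (1 - e • a) (e ^ 2) ∩ {h | Full ν h}) (Metric.isOpen_ball.inter h2.isOpen)
      ⟨_, Metric.mem_ball_self (pow_pos he 2), hfull⟩ (fun h hh => hh.2)
      fun h hh => hcov h hh.2
    exact ⟨C, hC, g, (Metric.mem_ball.1 hg.1).le, hg.2, hA⟩
  obtain ⟨C, hC, hfr⟩ : ∃ C ∈ S, ∃ᶠ e in 𝓝[>] (0 : ℝ), ∃ g, dist g (1 - e • a) ≤ e ^ 2 ∧
      Full ν g ∧ ∀ᶠ g' in 𝓝 g, Agrees ν C g' := by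
    by_contra! hno
    have := (S.eventually_all (l := 𝓝[>] (0 : ℝ)) (p := fun C e => ¬ ∃ g,
      dist g (1 - e • a) ≤ e ^ 2 ∧ Full ν g ∧ ∀ᶠ g' in 𝓝 g, Agrees ν C g')).2
      fun C hC => (hno C hC).mono fun e he => by simpa using he
    obtain ⟨e, he, C, hC, hg⟩ := (this.and hev).exists
    exact he C hC hg
  refine ⟨C, hS C hC, fun e => if h : ∃ g, dist g (1 - e • a) ≤ e ^ 2 ∧ Full ν g ∧
    ∀ᶠ g' in 𝓝 g, Agrees ν C g' then h.choose else 1 - e • a, fun e => ?_, hfr.mono fun e he => ?_⟩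
  · by_cases h : ∃ g, dist g (1 - e • a) ≤ e ^ 2 ∧ Full ν g ∧ ∀ᶠ g' in 𝓝 g, Agrees ν C g'
    · simp only [dif_pos h]
      exact h.choose_spec.1
    · simp only [dif_neg h, dist_self]
      positivity
  · simp only [dif_pos he]
    exact he.choose_spec.2

theorem proj_agrees {p q : Fin N} {C : Fin N → Fin N → Fin N → ℝ} {h : Fin N → ℝ}
    (ha : Agrees ν C h) : proj ν p q h = 3 * tri C (wid ν p q) h h := by
  rw [← ha.grad_sum]
  exact Finset.sum_congr rfl fun i _ => mul_comm _ _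

theorem wid_comm (p q : Fin N) : wid ν q p = wid ν p q := by
  funext k
  rw [wid, wid, Calc.w, Calc.w, ← cross_anticomm, dotProduct_neg, abs_neg]

/-- Concavity of the shadow at a point where one form agrees nearby. -/
theorem tri_concave (h1 : Calc1 ν) (h2 : Calc2 ν) {p q : Fin N} (hw : Calc.w ν p q ≠ 0)
    {C : Fin N → Fin N → Fin N → ℝ} {g : Fin N → ℝ} (hg : Full ν g)
    (hA : ∀ᶠ g' in 𝓝 g, Agrees ν C g') {χ : Fin N → ℝ} (hχ : χ p = 0) :
    tri C (wid ν p q) χ χ ≤ 0 := by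
  set a := wid ν p q
  have hlim : ∀ c : ℝ, Tendsto (fun δ : ℝ => g + (c * δ) • χ) (𝓝[>] 0) (𝓝 g) := fun c =>
    (Continuous.tendsto' (by fun_prop) 0 g (by simp)).mono_left nhdsWithin_le_nhds
  have hev : ∀ᶠ g' in 𝓝 g, Agrees ν C g' ∧ Full ν g' := hA.and (h2.isOpen.eventually_mem hg)
  obtain ⟨δ, ⟨hp', hm'⟩, (hδ : 0 < δ)⟩ := (((hlim 1).eventually hev).and
    ((hlim (-1)).eventually hev) |>.and self_mem_nhdsWithin).exists
  have := proj_concave hw h1 hp'.2 hm'.2 (by simp [hχ])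
  rw [proj_agrees hp'.1, proj_agrees hm'.1,
    show (1 / 2 : ℝ) • (g + (1 * δ) • χ) + (1 / 2 : ℝ) • (g + (-1 * δ) • χ) = g by module,
    proj_agrees hA.self_of_nhds] at this
  simp only [tri_add₂, tri_add₃, tri_smul₂, tri_smul₃] at this
  have h0 : δ * δ * tri C a χ χ ≤ 0 := by linarith
  exact nonpos_of_mul_nonpos_right h0 (mul_pos hδ hδ)

/-- Monotonicity of the shadow at a point where one form agrees nearby. -/
theorem tri_mono (h1 : Calc1 ν) {p q : Fin N} (hw : Calc.w ν p q ≠ 0)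
    {C : Fin N → Fin N → Fin N → ℝ} (hC : SymC C) {g : Fin N → ℝ} (hg : Full ν g)
    (hA : ∀ᶠ g' in 𝓝 g, Agrees ν C g') {ψ : Fin N → ℝ} (hψ : 0 ≤ ψ) :
    0 ≤ tri C (wid ν p q) ψ g := by
  set a := wid ν p q
  have hlim : Tendsto (fun δ : ℝ => g + δ • ψ) (𝓝[>] 0) (𝓝 g) :=
    (Continuous.tendsto' (by fun_prop) 0 g (by simp)).mono_left nhdsWithin_le_nhds
  have hev : ∀ᶠ δ in 𝓝[>] (0 : ℝ), 0 ≤ 2 * tri C a ψ g + δ * tri C a ψ ψ := by
    filter_upwards [hlim.eventually hA, self_mem_nhdsWithin] with δ hd (hδ : 0 < δ)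
    have hle : g ≤ g + δ • ψ := le_add_of_nonneg_right (smul_nonneg hδ.le hψ)
    have := proj_mono hw h1 hg.1 hle (ν := ν)
    rw [proj_agrees hd, proj_agrees hA.self_of_nhds] at this
    simp only [tri_add₂, tri_add₃, tri_smul₂, tri_smul₃] at this
    rw [hC.swap₂ (wid ν p q) g ψ] at this
    exact (mul_nonneg_iff_of_pos_left hδ).1 (by linarith :
      0 ≤ δ * (2 * tri C a ψ g + δ * tri C a ψ ψ))
  have := ge_of_tendsto ((Continuous.tendsto' (by fun_prop :
    Continuous fun δ : ℝ => 2 * tri C a ψ g + δ * tri C a ψ ψ) 0 (2 * tri C a ψ g)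
    (by simp)).mono_left nhdsWithin_le_nhds) hev
  linarith

/-- No configuration is worst with `0 ≤ s < 1 / 2`. -/
theorem no_worst (hcalc : CalcStatement) {s : ℝ} (hs : 0 ≤ s) (hs2 : s < 1 / 2)
    (hall : ∀ ν : Fin N → V3, Fam ν → Full ν 1 → Bound s ν) (hν : Fam ν) (hF : Full ν 1)
    {φ : Fin N → ℝ} (hW : Worst ν φ s) : False := by
  obtain ⟨h1, h2⟩ := hcalc N ν hν
  have hV := h1.vol_pos 1 hF.1
  obtain ⟨hm0, hm2, heig, -⟩ := hW
  have hφ2 : (fun i => φ i ^ 2) = φ ^ 2 := rfl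
  rw [hφ2] at hm2
  -- the two facets
  have hNe : Nonempty (Fin N) := by
    by_contra h
    rw [not_nonempty_iff] at h
    simp [mean] at hm2
  obtain ⟨p, hp⟩ := Finite.exists_max φ
  obtain ⟨q, hq⟩ := Finite.exists_min φ
  have hex : ∀ ψ : Fin N → ℝ, mean ν ψ = 0 → mean ν (ψ ^ 2) = 1 → ∃ i, 0 < ψ i := by
    intro ψ h0 h2'
    by_contra! hle
    have hz : ∀ i, mass ν i * ψ i = 0 := fun i =>
      (Finset.sum_eq_zero_iff_of_nonpos fun i _ => mul_nonpos_of_nonneg_of_nonpos
        (mass_nonneg hV hF i) (hle i)).1 h0 i (Finset.mem_univ i)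
    have : mean ν (ψ ^ 2) = 0 :=
      Finset.sum_eq_zero fun i _ => by rw [Pi.pow_apply, sq, ← mul_assoc, hz, zero_mul]
    linarith
  have hα : 0 < φ p := by
    obtain ⟨i, hi⟩ := hex φ hm0 hm2
    exact hi.trans_le (hp i)
  have hβ : φ q < 0 := by
    obtain ⟨i, hi⟩ := hex (-φ) (by simp [mean] at hm0 ⊢; exact hm0) (by rw [neg_sq]; exact hm2)
    rw [Pi.neg_apply] at hi
    linarith [hq i]
  have hw : Calc.w ν p q ≠ 0 := hν.indep p q fun e => by rw [e] at hα; linarith
  have hw' : Calc.w ν q p ≠ 0 := hν.indep q p fun e => by rw [e] at hβ; linarith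
  set a := wid ν p q with ha
  have ha0 : 0 ≤ a := fun i => abs_nonneg _
  -- the form
  obtain ⟨C, hC, G, hG, hfr⟩ := exists_open_germ h1 h2 hF a
  obtain ⟨e₀, hg₀, hA₀⟩ := hfr.exists
  have hG1 : Tendsto G (𝓝[>] 0) (𝓝 1) := by
    have hc : Tendsto (fun e : ℝ => (1 : Fin N → ℝ) - e • a) (𝓝[>] 0) (𝓝 1) :=
      (Continuous.tendsto' (by fun_prop) 0 1 (by simp)).mono_left nhdsWithin_le_nhds
    refine tendsto_of_tendsto_of_dist hc (squeeze_zero (fun e => dist_nonneg)
      (fun e => (dist_comm _ _).trans_le (hG e)) ?_)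
    exact (Continuous.tendsto' (by fun_prop) 0 0 (by simp)).mono_left nhdsWithin_le_nhds
  have hA1 : Agrees ν C 1 :=
    agrees_of_frequently h1 h2 hF (hG1.frequently (hfr.mono fun e he => he.2.self_of_nhds))
  have hm : ∀ f, tri C f 1 1 = mean ν f * vol ν 1 := fun f => by
    rw [hA1.mean_eq, div_mul_cancel₀ _ hV.ne']
  have he : ∀ e, tri C φ e 1 = -s * tri C (φ * e) 1 1 := fun e => by
    have := hA1.form_eq hC φ e
    rw [heig, eq_div_iff hV.ne'] at this
    rw [hm, ← this]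
    ring
  have t0 : tri C φ 1 1 = 0 := by rw [hm, hm0, zero_mul]
  have t1 : tri C 1 1 1 = vol ν 1 := hA1.1.symm
  have t2 : tri C (φ ^ 2) 1 1 = vol ν 1 := by rw [hm, hm2, one_mul]
  have t3 : tri C φ φ 1 = -s * vol ν 1 := by rw [he, ← pow_two, t2]
  have t4 : tri C a φ 1 = -s * tri C (a * φ) 1 1 := by rw [hC.swap₁, he, mul_comm φ a]
  -- concavity
  have hconc : ∀ r, r = p ∨ r = q →
      tri C a φ φ + 2 * s * φ r * tri C (a * φ) 1 1 + φ r ^ 2 * tri C a 1 1 ≤ 0 := by
    intro r hr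
    have h : tri C a (φ + (-φ r) • 1) (φ + (-φ r) • 1) ≤ 0 := by
      rcases hr with rfl | rfl
      · exact tri_concave h1 h2 hw hg₀ hA₀ (by simp)
      · rw [ha, ← wid_comm]
        exact tri_concave h1 h2 hw' hg₀ hA₀ (by simp)
    simp only [tri_add₂, tri_add₃, tri_smul₂, tri_smul₃] at h
    rw [hC.swap₂ a 1 φ, t4] at h
    linarith
  -- monotonicity
  have hmono : tri C a (φ ^ 2) 1
      ≤ -s * (φ p + φ q) * tri C (a * φ) 1 1 - φ p * φ q * tri C a 1 1 := by
    set ψ : Fin N → ℝ := (φ p + φ q) • φ + (-(φ p * φ q)) • 1 + (-1 : ℝ) • φ ^ 2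
    have hψ : 0 ≤ ψ := fun i => by
      simp only [ψ, Pi.zero_apply, Pi.add_apply, Pi.smul_apply, Pi.pow_apply, Pi.one_apply,
        smul_eq_mul]
      nlinarith [mul_nonneg (sub_nonneg.2 (hp i)) (sub_nonneg.2 (hq i))]
    have h : 0 ≤ tri C a ψ 1 := by
      refine ge_of_tendsto_of_frequently ?_ (hfr.mono fun e he =>
        tri_mono h1 hw hC he.1 he.2 hψ)
      exact ((tri_continuousAt C continuousAt_const continuousAt_const
        continuousAt_id).tendsto).comp hG1
    simp only [ψ, tri_add₂, tri_smul₂, t4] at h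
    linarith
  -- stationarity
  have hstat : s * (tri C (φ ^ 2 * a) 1 1 - 2 * tri C (φ ^ 2) a 1) ≤ tri C φ φ a := by
    set b : ℝ → Fin N → ℝ := fun e => e⁻¹ • (1 - G e)
    have hb : Tendsto b (𝓝[>] 0) (𝓝 a) := by
      rw [tendsto_iff_dist_tendsto_zero]
      refine squeeze_zero' (Eventually.of_forall fun e => dist_nonneg) ?_
        (tendsto_id.mono_left nhdsWithin_le_nhds)
      filter_upwards [self_mem_nhdsWithin] with e (hpos : 0 < e)
      have e1 : b e - a = e⁻¹ • ((1 - e • a) - G e) := by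
        simp only [b, smul_sub, smul_smul, inv_mul_cancel₀ hpos.ne', one_smul]
        abel
      rw [_root_.dist_eq_norm, e1, norm_smul, norm_inv, Real.norm_eq_abs, abs_of_pos hpos,
        ← _root_.dist_eq_norm, inv_mul_le_iff₀ hpos, dist_comm, id]
      linarith [hG e]
    set M : ℝ × (Fin N → ℝ) × (Fin N → ℝ) → ℝ := fun x =>
      -tri C φ φ x.2.1 + s * (-2 * tri C (φ ^ 2) x.2.1 1 + x.1 * tri C (φ ^ 2) x.2.1 x.2.1
        + tri C (φ ^ 2 * x.2.1 / x.2.2) x.2.2 x.2.2)
      - (1 + s) * x.1 * (-2 * tri C φ x.2.1 1 + x.1 * tri C φ x.2.1 x.2.1) ^ 2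
        / tri C x.2.2 x.2.2 x.2.2
    have hM : ContinuousAt M (0, a, 1) := by
      have c1 : ContinuousAt (fun x : ℝ × (Fin N → ℝ) × (Fin N → ℝ) => x.2.1) (0, a, 1) := by
        fun_prop
      have c2 : ContinuousAt (fun x : ℝ × (Fin N → ℝ) × (Fin N → ℝ) => x.2.2) (0, a, 1) := by
        fun_prop
      have c3 : ContinuousAt (fun x : ℝ × (Fin N → ℝ) × (Fin N → ℝ) => φ ^ 2 * x.2.1 / x.2.2)
          (0, a, 1) := by
        refine continuousAt_pi.2 fun i => ContinuousAt.div (by fun_prop) (by fun_prop) ?_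
        simp
      have d0 := fun f g => tri_continuousAt C (f := fun _ => f) (g := fun _ => g)
        continuousAt_const continuousAt_const c1
      have d1 := fun f k => tri_continuousAt C (f := fun _ => f) (k := fun _ => k)
        continuousAt_const c1 continuousAt_const
      have d2 := fun f => tri_continuousAt C (f := fun _ => f) continuousAt_const c1 c1
      have d3 := tri_continuousAt C c3 c2 c2
      have d4 := tri_continuousAt C c2 c2 c2
      refine ContinuousAt.sub ((d0 φ φ).neg.add (continuousAt_const.mul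
        (((continuousAt_const.mul (d1 (φ ^ 2) 1)).add (continuousAt_fst.mul (d2 (φ ^ 2)))).add d3)))
        (((continuousAt_const.mul continuousAt_fst).mul (((continuousAt_const.mul (d1 φ 1)).add
          (continuousAt_fst.mul (d2 φ))).pow 2)).div d4 ?_)
      simp only
      rw [t1]
      exact hV.ne'
    have hlim : Tendsto (fun e => M (e, b e, G e)) (𝓝[>] 0) (𝓝 (M (0, a, 1))) :=
      hM.tendsto.comp ((tendsto_id.mono_left nhdsWithin_le_nhds).prodMk_nhds (hb.prodMk_nhds hG1))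
    have hle : M (0, a, 1) ≤ 0 := by
      refine le_of_tendsto_of_frequently hlim ((hfr.and_eventually self_mem_nhdsWithin).mono ?_)
      rintro e ⟨⟨hfull, hA⟩, (hpos : 0 < e)⟩
      have hGb : G e = 1 + (-e) • b e := by
        simp only [b, smul_smul, neg_mul, mul_inv_cancel₀ hpos.ne', neg_smul, one_smul]
        abel
      have hdiv : φ ^ 2 / G e = φ ^ 2 + e • (φ ^ 2 * b e / G e) := by
        funext i
        have hi := (hfull.1 i).ne'
        have hGi := congrFun hGb i
        simp only [Pi.add_apply, Pi.one_apply, Pi.smul_apply, smul_eq_mul] at hGi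
        simp only [Pi.div_apply, Pi.add_apply, Pi.mul_apply, Pi.smul_apply, Pi.pow_apply,
          smul_eq_mul]
        field_simp
        linear_combination (-φ i ^ 2) * hGi
      have hq2 : tri C (φ ^ 2) (G e) (G e)
          = vol ν 1 + e * (-2 * tri C (φ ^ 2) (b e) 1 + e * tri C (φ ^ 2) (b e) (b e)) := by
        rw [hGb]
        simp only [tri_add₂, tri_add₃, tri_smul₂, tri_smul₃, t2, hC.swap₂ (φ ^ 2) 1 (b e)]
        ring
      have hq1 : tri C φ (G e) (G e)
          = e * (-2 * tri C φ (b e) 1 + e * tri C φ (b e) (b e)) := by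
        rw [hGb]
        simp only [tri_add₂, tri_add₃, tri_smul₂, tri_smul₃, t0, hC.swap₂ φ 1 (b e)]
        ring
      have hq0 : tri C φ φ (G e) = -s * vol ν 1 - e * tri C φ φ (b e) := by
        rw [hGb, tri_add₃, tri_smul₃, t3]
        ring
      have hle := Agrees.func_le h1 hν hall hC hfull hA.self_of_nhds φ
      rw [func, hdiv, tri_add₁, tri_smul₁, hq0, hq1, hq2] at hle
      refine nonpos_of_mul_nonpos_right (le_trans (le_of_eq ?_) hle) hpos
      simp only [M]
      ring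
    simp only [M, zero_mul, mul_zero, zero_div, sub_zero, add_zero, div_one] at hle
    linarith
  -- conclusion
  have hA : 0 < tri C a 1 1 := by
    rw [hm]
    refine mul_pos (Finset.sum_pos' (fun i _ => mul_nonneg (mass_nonneg hV hF i) (ha0 i)) ?_) hV
    by_contra! hno
    refine hw (hν.span _ fun i => ?_)
    have := le_antisymm (hno i (Finset.mem_univ i)) (mul_nonneg (mass_nonneg hV hF i) (ha0 i))
    exact abs_eq_zero.1
      ((mul_eq_zero.1 this).resolve_left (div_pos (hF.2 i) (by positivity)).ne')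
  have hsq : 0 ≤ tri C (a * φ ^ 2) 1 1 + 2 * ((1 + 2 * s) * (φ p + φ q) / 2) * tri C (a * φ) 1 1
      + ((1 + 2 * s) * (φ p + φ q) / 2) ^ 2 * tri C a 1 1 := by
    set l := (1 + 2 * s) * (φ p + φ q) / 2
    have e1 : a * (φ + l • 1) ^ 2 = a * φ ^ 2 + (2 * l) • (a * φ) + l ^ 2 • a := by
      funext i
      simp only [Pi.mul_apply, Pi.pow_apply, Pi.add_apply, Pi.smul_apply, Pi.one_apply, smul_eq_mul]
      ring
    have : 0 ≤ tri C (a * (φ + l • 1) ^ 2) 1 1 := by
      rw [hm]
      exact mul_nonneg (Finset.sum_nonneg fun i _ =>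
        mul_nonneg (mass_nonneg hV hF i) (mul_nonneg (ha0 i) (sq_nonneg _))) hV.le
    rwa [e1, tri_add₁, tri_add₁, tri_smul₁, tri_smul₁] at this
  rw [hC.swap₁ (φ ^ 2) a 1, mul_comm (φ ^ 2) a, hC.swap₂ φ φ a, hC.swap₁ φ a φ] at hstat
  have k2 : 0 ≤ 1 - 2 * s * (1 + 2 * s) ^ 2 / 4 := by
    nlinarith [mul_nonneg hs (sub_nonneg.2 hs2.le), mul_nonneg hs hs]
  nlinarith [hconc p (Or.inl rfl), hconc q (Or.inr rfl), mul_le_mul_of_nonneg_left hmono hs,
    mul_nonneg hs hsq, mul_nonneg (mul_nonneg k2 (sq_nonneg (φ p + φ q))) hA.le,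
    mul_pos (mul_pos (mul_pos hα (neg_pos.2 hβ)) hA) (by linarith : (0 : ℝ) < 1 - 2 * s)]

end

end Vale.Agent.P227.Log3
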