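import Vale.Agent.P227.Lp.Kink
import Vale.Agent.P227.Lp.Minkowski
import Vale.Agent.P227.Lp.Calc.Slice

/-!
# P227: the shadow along the common perpendicular of two facets

The derivative of the volume along `k ↦ |ν k ⬝ w|`, `w = ν p × ν q`, is twice the area of the
projection of the body along `w`. It is monotone in the support numbers, and concave where the
support number of `p` is fixed, as the sections of the projection at given `ν p ⬝ x` are.
-/

namespace Vale.Agent.P227.Log3

open MeasureTheory Set Filter Topology Matrix Function Lp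
open scoped ENNReal

noncomputable section

variable {N : ℕ} (ν : Fin N → V3) (p q : Fin N)

/-- The widening direction. -/
def wid (k : Fin N) : ℝ := |ν k ⬝ᵥ Calc.w ν p q|

/-- The point with coordinates `y`, `r`. -/
def pt (y : ℝ × ℝ) (r : ℝ) : V3 :=
  y.1 • Calc.va ν p q + y.2 • Calc.vb ν p q + r • Calc.w ν p q

/-- The body in coordinates. -/
def inCrd (h : Fin N → ℝ) : Set ((ℝ × ℝ) × ℝ) := {z | pt ν p q z.1 z.2 ∈ body ν h}

/-- The fibre over a point of the projection. -/
def fib (h : Fin N → ℝ) (y : ℝ × ℝ) : Set ℝ := {r | pt ν p q y r ∈ body ν h}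

/-- The projection. -/
def shad (h : Fin N → ℝ) : Set (ℝ × ℝ) := {y | ∃ r, pt ν p q y r ∈ body ν h}

/-- The section of the projection. -/
def sect (h : Fin N → ℝ) (u : ℝ) : Set ℝ := {v | (u, v) ∈ shad ν p q h}

/-- The derivative of the volume along the widening direction. -/
def proj (h : Fin N → ℝ) : ℝ := ∑ k, wid ν p q k * grad ν h k

theorem wid_left : wid ν p q p = 0 := by simp [wid, Calc.w, dot_self_cross]

theorem wid_right : wid ν p q q = 0 := by simp [wid, Calc.w, dot_cross_self]

variable {ν p q}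

theorem dot_pt (k : Fin N) (y : ℝ × ℝ) (r : ℝ) :
    ν k ⬝ᵥ pt ν p q y r = y.1 * (ν k ⬝ᵥ Calc.va ν p q) + y.2 * (ν k ⬝ᵥ Calc.vb ν p q)
      + r * (ν k ⬝ᵥ Calc.w ν p q) := by
  simp [pt, dotProduct_add, dotProduct_smul]

theorem pt_avg (s : ℝ) (y z : ℝ × ℝ) (r r' : ℝ) :
    pt ν p q ((1 - s) • y + s • z) ((1 - s) * r + s * r')
      = (1 - s) • pt ν p q y r + s • pt ν p q z r' := by
  simp only [pt, Prod.fst_add, Prod.snd_add, Prod.smul_fst, Prod.smul_snd, smul_eq_mul]
  module

theorem body_avg {h h' : Fin N → ℝ} {x x' : V3} (hx : x ∈ body ν h) (hx' : x' ∈ body ν h') {s : ℝ}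
    (hs0 : 0 ≤ s) (hs1 : s ≤ 1) :
    (1 - s) • x + s • x' ∈ body ν ((1 - s) • h + s • h') := fun k => by
  rw [dotProduct_add, dotProduct_smul, dotProduct_smul, Pi.add_apply, Pi.smul_apply, Pi.smul_apply,
    smul_eq_mul, smul_eq_mul, smul_eq_mul, smul_eq_mul]
  refine (abs_add_le _ _).trans (add_le_add ?_ ?_) <;>
    rw [abs_mul, abs_of_nonneg (by linarith)]
  · exact mul_le_mul_of_nonneg_left (hx k) (by linarith)
  · exact mul_le_mul_of_nonneg_left (hx' k) hs0

theorem convex_fib (h : Fin N → ℝ) (y : ℝ × ℝ) : Convex ℝ (fib ν p q h y) := by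
  intro r hr r' hr' a b ha hb hab
  obtain rfl : a = 1 - b := by linarith
  have := body_avg hr hr' hb (by linarith)
  rw [← pt_avg] at this
  simpa [fib, ← add_smul, smul_eq_mul] using this

theorem convex_sect (h : Fin N → ℝ) (u : ℝ) : Convex ℝ (sect ν p q h u) := by
  rintro v ⟨r, hr⟩ v' ⟨r', hr'⟩ a b ha hb hab
  obtain rfl : a = 1 - b := by linarith
  refine ⟨(1 - b) * r + b * r', ?_⟩
  have := body_avg hr hr' hb (by linarith)
  rw [← pt_avg] at this
  simpa [← add_smul, Prod.smul_mk, smul_eq_mul, ← add_mul] using this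

section

variable (hw : Calc.w ν p q ≠ 0)
include hw

theorem pt_crd (x : V3) :
    pt ν p q ((Calc.crd ν p q x).1, (Calc.crd ν p q x).2.1) (Calc.crd ν p q x).2.2 = x :=
  (Calc.expand ν hw x).symm

theorem body_eq_crd (h : Fin N → ℝ) :
    body ν h = (fun x => (((Calc.crd ν p q x).1, (Calc.crd ν p q x).2.1),
      (Calc.crd ν p q x).2.2)) ⁻¹' inCrd ν p q h := by
  ext x
  rw [Set.mem_preimage, inCrd, Set.mem_setOf_eq, pt_crd hw]

theorem isCompact_inCrd (h1 : Calc1 ν) (h : Fin N → ℝ) : IsCompact (inCrd ν p q h) := by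
  have e : inCrd ν p q h = (fun x => (((Calc.crd ν p q x).1, (Calc.crd ν p q x).2.1),
      (Calc.crd ν p q x).2.2)) '' body ν h := by
    ext ⟨⟨u, v⟩, r⟩
    refine ⟨fun hz => ⟨_, hz, ?_⟩, ?_⟩
    · simp [pt, Calc.crd_point ν hw]
    · rintro ⟨x, hx, he⟩
      have := pt_crd hw x
      simp only [Prod.mk.injEq] at he
      rw [he.1.1, he.1.2, he.2] at this
      simpa [inCrd, this] using hx
  rw [e]
  refine (h1.compact h).image ?_
  simp only [Calc.crd, dotProduct, Fin.sum_univ_three]
  fun_prop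

theorem isCompact_shad (h1 : Calc1 ν) (h : Fin N → ℝ) : IsCompact (shad ν p q h) := by
  have e : shad ν p q h = Prod.fst '' inCrd ν p q h := by
    ext y
    exact ⟨fun ⟨r, hr⟩ => ⟨(y, r), hr, rfl⟩, fun ⟨z, hz, he⟩ => ⟨z.2, he ▸ hz⟩⟩
  exact e ▸ (isCompact_inCrd hw h1 h).image continuous_fst

theorem isCompact_fib (h1 : Calc1 ν) (h : Fin N → ℝ) (y : ℝ × ℝ) :
    IsCompact (fib ν p q h y) := by
  refine ((isCompact_inCrd hw h1 h).image continuous_snd).of_isClosed_subset ?_
    fun r hr => ⟨(y, r), hr, rfl⟩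
  exact (isCompact_inCrd hw h1 h).isClosed.preimage (Continuous.prodMk continuous_const continuous_id)

theorem isCompact_sect (h1 : Calc1 ν) (h : Fin N → ℝ) (u : ℝ) :
    IsCompact (sect ν p q h u) := by
  refine ((isCompact_shad hw h1 h).image continuous_snd).of_isClosed_subset ?_
    fun v hv => ⟨(u, v), hv, rfl⟩
  exact (isCompact_shad hw h1 h).isClosed.preimage (Continuous.prodMk continuous_const continuous_id)

theorem volume_body (h1 : Calc1 ν) (h : Fin N → ℝ) :
    volume (body ν h) = ∫⁻ y : ℝ × ℝ, volume (fib ν p q h y) := by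
  have hm : MeasurableSet (inCrd ν p q h) := (isCompact_inCrd hw h1 h).measurableSet
  have hp := (MeasurePreserving.symm _ (measurePreserving_prodAssoc (volume : Measure ℝ)
    (volume : Measure ℝ) (volume : Measure ℝ))).comp (Calc.crd_preserving ν hw)
  rw [Measure.volume_eq_prod ℝ ℝ]
  rw [show (fun y : ℝ × ℝ => volume (fib ν p q h y))
    = fun y => volume (Prod.mk y ⁻¹' inCrd ν p q h) from rfl, ← Measure.prod_apply hm,
    body_eq_crd hw h, ← hp.measure_preimage hm.nullMeasurableSet]
  rfl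

theorem volume_shad (h1 : Calc1 ν) (h : Fin N → ℝ) :
    volume (shad ν p q h) = ∫⁻ u : ℝ, volume (sect ν p q h u) := by
  rw [Measure.volume_eq_prod, Measure.prod_apply (isCompact_shad hw h1 h).measurableSet]
  rfl

omit hw in
/-- A compact convex set of reals is an interval. -/
theorem exists_Icc {S : Set ℝ} (hc : IsCompact S) (hv : Convex ℝ S) (hne : S.Nonempty) :
    ∃ a b, a ≤ b ∧ a ∈ S ∧ b ∈ S ∧ S = Icc a b := by
  refine ⟨sInf S, sSup S, csInf_le_csSup hne hc.bddBelow hc.bddAbove, hc.sInf_mem hne,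
    hc.sSup_mem hne, ?_⟩
  exact eq_Icc_of_connected_compact ⟨hne, hv.isPreconnected⟩ hc

theorem fib_widen (h1 : Calc1 ν) (h : Fin N → ℝ) {e : ℝ} (he : 0 ≤ e) (y : ℝ × ℝ) :
    volume (fib ν p q h y) + (shad ν p q h).indicator (fun _ => ENNReal.ofReal (2 * e)) y
      ≤ volume (fib ν p q (h + e • wid ν p q) y) := by
  by_cases hy : y ∈ shad ν p q h
  · obtain ⟨a, b, hab, ha, hb, hS⟩ :=
      exists_Icc (isCompact_fib hw h1 h y) (convex_fib h y) hy
    rw [indicator_of_mem hy, hS, Real.volume_Icc,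
      ← ENNReal.ofReal_add (by linarith) (by positivity)]
    have hsub : Icc (a - e) (b + e) ⊆ fib ν p q (h + e • wid ν p q) y := by
      refine (convex_fib _ y).ordConnected.out ?_ ?_ <;> intro k <;>
        rw [dot_pt, Pi.add_apply, Pi.smul_apply, smul_eq_mul, wid]
      · have hk := ha k
        rw [dot_pt] at hk
        rw [sub_mul, show ∀ A B C D : ℝ, A + B + (C - D) = A + B + C + -D from fun _ _ _ _ => by ring]
        refine (abs_add_le _ _).trans (add_le_add hk ?_)
        rw [abs_neg, abs_mul, abs_of_nonneg he]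
      · have hk := hb k
        rw [dot_pt] at hk
        rw [add_mul, ← add_assoc]
        refine (abs_add_le _ _).trans (add_le_add hk ?_)
        rw [abs_mul, abs_of_nonneg he]
    refine le_trans (le_of_eq ?_) (measure_mono hsub)
    rw [Real.volume_Icc]
    congr 1
    ring
  · rw [indicator_of_notMem hy, add_zero,
      show fib ν p q h y = ∅ from eq_empty_of_forall_notMem fun r hr => hy ⟨r, hr⟩, measure_empty]
    exact zero_le

theorem fib_shrink (h1 : Calc1 ν) (h : Fin N → ℝ) {e : ℝ} (he : 0 ≤ e) (y : ℝ × ℝ) :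
    volume (fib ν p q h y) ≤ volume (fib ν p q (h - e • wid ν p q) y)
      + (shad ν p q h).indicator (fun _ => ENNReal.ofReal (2 * e)) y := by
  by_cases hy : y ∈ shad ν p q h
  · obtain ⟨a, b, hab, -, -, hS⟩ :=
      exists_Icc (isCompact_fib hw h1 h y) (convex_fib h y) hy
    rw [indicator_of_mem hy]
    have hsub : Icc (a + e) (b - e) ⊆ fib ν p q (h - e • wid ν p q) y := by
      intro r hr k
      have m1 : r - e ∈ fib ν p q h y := hS ▸ ⟨by linarith [hr.1], by linarith [hr.2]⟩
      have m2 : r + e ∈ fib ν p q h y := hS ▸ ⟨by linarith [hr.1], by linarith [hr.2]⟩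
      have k1 := abs_le.1 (m1 k)
      have k2 := abs_le.1 (m2 k)
      rw [dot_pt] at k1 k2
      rw [dot_pt, Pi.sub_apply, Pi.smul_apply, smul_eq_mul, wid]
      rcases abs_choice (ν k ⬝ᵥ Calc.w ν p q) with h' | h' <;> rw [h', abs_le] <;>
        constructor <;> linarith [sub_mul r e (ν k ⬝ᵥ Calc.w ν p q), add_mul r e (ν k ⬝ᵥ Calc.w ν p q)]
    calc volume (fib ν p q h y) = ENNReal.ofReal (b - a) := by rw [hS, Real.volume_Icc]
      _ ≤ ENNReal.ofReal (b - e - (a + e)) + ENNReal.ofReal (2 * e) := by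
          refine le_trans (ENNReal.ofReal_le_ofReal ?_) ENNReal.ofReal_add_le
          linarith
      _ ≤ _ := add_le_add_left ((Real.volume_Icc).symm.le.trans (measure_mono hsub)) _
  · rw [indicator_of_notMem hy, add_zero,
      show fib ν p q h y = ∅ from eq_empty_of_forall_notMem fun r hr => hy ⟨r, hr⟩, measure_empty]
    exact zero_le

theorem vol_widen (h1 : Calc1 ν) (h : Fin N → ℝ) {e : ℝ} (he : 0 ≤ e) :
    vol ν h + 2 * e * (volume (shad ν p q h)).toReal ≤ vol ν (h + e • wid ν p q)
      ∧ vol ν h ≤ vol ν (h - e • wid ν p q) + 2 * e * (volume (shad ν p q h)).toReal := by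
  have hS := (isCompact_shad hw h1 h).measure_lt_top (μ := (volume : Measure (ℝ × ℝ))) |>.ne
  have hb : ∀ g, volume (body ν g) ≠ ⊤ := fun g => (h1.compact g).measure_lt_top.ne
  have hi : ∫⁻ y : ℝ × ℝ, (shad ν p q h).indicator (fun _ => ENNReal.ofReal (2 * e)) y
      = ENNReal.ofReal (2 * e) * volume (shad ν p q h) :=
    lintegral_indicator_const (isCompact_shad hw h1 h).measurableSet _
  have hmi : Measurable ((shad ν p q h).indicator fun _ => ENNReal.ofReal (2 * e)) :=
    measurable_const.indicator (isCompact_shad hw h1 h).measurableSet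
  have he' : (ENNReal.ofReal (2 * e) * volume (shad ν p q h)).toReal
      = 2 * e * (volume (shad ν p q h)).toReal := by
    rw [ENNReal.toReal_mul, ENNReal.toReal_ofReal (by positivity)]
  have hne := ENNReal.mul_ne_top (ENNReal.ofReal_ne_top (r := 2 * e)) hS
  constructor
  · rw [vol, vol, ← he', ← ENNReal.toReal_add (hb h) hne]
    refine ENNReal.toReal_mono (hb _) ?_
    rw [volume_body hw h1, volume_body hw h1, ← hi, ← lintegral_add_right _ hmi]
    exact lintegral_mono (fib_widen hw h1 h he)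
  · rw [vol, vol, ← he', ← ENNReal.toReal_add (hb _) hne]
    refine ENNReal.toReal_mono (ENNReal.add_ne_top.2 ⟨hb _, hne⟩) ?_
    rw [volume_body hw h1, volume_body hw h1, ← hi, ← lintegral_add_right _ hmi]
    exact lintegral_mono (fib_shrink hw h1 h he)

/-- The derivative along the widening direction is twice the area of the projection. -/
theorem proj_eq (h1 : Calc1 ν) {h : Fin N → ℝ} (hh : ∀ i, 0 < h i) :
    proj ν p q h = 2 * (volume (shad ν p q h)).toReal := by
  set a := wid ν p q
  have hd : HasDerivAt (fun t : ℝ => vol ν (h + t • a)) (proj ν p q h) 0 := by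
    have := hasDerivAt_vol_line h1 h a (t := 0) (by simpa using hh)
    simpa [proj, mul_comm, a] using this
  refine le_antisymm (le_of_tendsto (hd.tendsto_slope.mono_left
      (nhdsWithin_mono (s := Iio (0 : ℝ)) _ fun x hx => (Set.mem_Iio.1 hx).ne)) ?_)
    (ge_of_tendsto (hd.tendsto_slope.mono_left
      (nhdsWithin_mono (s := Ioi (0 : ℝ)) _ fun x hx => (Set.mem_Ioi.1 hx).ne')) ?_)
  · filter_upwards [self_mem_nhdsWithin] with t ht
    have ht : t < 0 := ht
    have := (vol_widen hw h1 h (e := -t) (by linarith)).2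
    rw [neg_smul, sub_neg_eq_add] at this
    rw [slope_def_field, zero_smul, add_zero, sub_zero, div_le_iff_of_neg ht]
    linarith
  · filter_upwards [self_mem_nhdsWithin] with t ht
    have ht : 0 < t := ht
    have := (vol_widen hw h1 h (e := t) ht.le).1
    rw [slope_def_field, zero_smul, add_zero, sub_zero, le_div_iff₀ ht]
    linarith

/-- The projection grows with the support numbers. -/
theorem proj_mono (h1 : Calc1 ν) {h h' : Fin N → ℝ} (hh : ∀ i, 0 < h i) (hle : h ≤ h') :
    proj ν p q h ≤ proj ν p q h' := by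
  rw [proj_eq hw h1 hh, proj_eq hw h1 fun i => (hh i).trans_le (hle i)]
  refine mul_le_mul_of_nonneg_left (ENNReal.toReal_mono
    (isCompact_shad hw h1 h').measure_lt_top.ne (measure_mono ?_)) zero_le_two
  rintro y ⟨r, hr⟩
  exact ⟨r, fun k => (hr k).trans (hle k)⟩

theorem sect_empty {h : Fin N → ℝ} {u : ℝ} (hu : h p < |u|) : sect ν p q h u = ∅ := by
  refine eq_empty_of_forall_notMem ?_
  rintro v ⟨r, hr⟩
  obtain ⟨e1, -, e3, -, e5, -⟩ := Calc.duals ν hw
  have := hr p
  rw [dot_pt, e1, e3, e5] at this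
  simp at this
  linarith

theorem sect_nonempty (h1 : Calc1 ν) {h : Fin N → ℝ} (hF : Full ν h) {u : ℝ} (hu : |u| ≤ h p) :
    (sect ν p q h u).Nonempty := by
  obtain ⟨x, hx, hxp⟩ := exists_supp (ctr_body (fun i => (hF.1 i).le) (h1.compact h)) (ν p)
  rw [supp_eq_of_full h1 hF] at hxp
  set z := (u / h p) • x
  have hz : z ∈ body ν h := fun k => by
    have hc : |u / h p| ≤ 1 := by rwa [abs_div, abs_of_pos (hF.1 p), div_le_one (hF.1 p)]
    rw [dotProduct_smul, smul_eq_mul, abs_mul]
    exact le_trans (mul_le_of_le_one_left (abs_nonneg _) hc) (hx k)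
  have he : (Calc.crd ν p q z).1 = u := by
    simp [Calc.crd, z, dotProduct_smul, hxp, (hF.1 p).ne']
  refine ⟨(Calc.crd ν p q z).2.1, (Calc.crd ν p q z).2.2, ?_⟩
  rw [← he, pt_crd hw]
  exact hz

/-- The projection is concave where the support number of `p` is fixed. -/
theorem proj_concave (h1 : Calc1 ν) {h h' : Fin N → ℝ} (hF : Full ν h) (hF' : Full ν h')
    (hp : h p = h' p) :
    proj ν p q h + proj ν p q h'
      ≤ 2 * proj ν p q ((1 / 2 : ℝ) • h + (1 / 2 : ℝ) • h') := by
  set m := (1 / 2 : ℝ) • h + (1 / 2 : ℝ) • h'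
  have hm : ∀ i, 0 < m i := fun i => by
    have := hF.1 i; have := hF'.1 i
    simp only [m, Pi.add_apply, Pi.smul_apply, smul_eq_mul]; linarith
  rw [proj_eq hw h1 hF.1, proj_eq hw h1 hF'.1, proj_eq hw h1 hm]
  have hf : ∀ g, volume (shad ν p q g) ≠ ⊤ := fun g =>
    (isCompact_shad hw h1 g).measure_lt_top.ne
  have key : volume (shad ν p q h) + volume (shad ν p q h') ≤ 2 * volume (shad ν p q m) := by
    rw [volume_shad hw h1, volume_shad hw h1, volume_shad hw h1,
      ← lintegral_const_mul' _ _ (by norm_num)]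
    refine (le_lintegral_add _ _).trans (lintegral_mono fun u => ?_)
    rcases le_or_gt |u| (h p) with hu | hu
    · obtain ⟨a, b, hab, ha, hb, hS⟩ :=
        exists_Icc (isCompact_sect hw h1 h u) (convex_sect h u) (sect_nonempty hw h1 hF hu)
      obtain ⟨a', b', hab', ha', hb', hS'⟩ :=
        exists_Icc (isCompact_sect hw h1 h' u) (convex_sect h' u)
          (sect_nonempty hw h1 hF' (hp ▸ hu))
      have hav : ∀ v ∈ sect ν p q h u, ∀ v' ∈ sect ν p q h' u,
          (v + v') / 2 ∈ sect ν p q m u := by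
        rintro v ⟨r, hr⟩ v' ⟨r', hr'⟩
        refine ⟨(r + r') / 2, ?_⟩
        have := body_avg hr hr' (s := 1 / 2) (by norm_num) (by norm_num)
        rw [← pt_avg] at this
        rwa [show (1 - 1 / 2 : ℝ) • (u, v) + (1 / 2 : ℝ) • (u, v') = (u, (v + v') / 2) by
            ext <;> simp <;> ring,
          show (1 - 1 / 2 : ℝ) * r + 1 / 2 * r' = (r + r') / 2 by ring,
          show (1 - 1 / 2 : ℝ) • h + (1 / 2 : ℝ) • h' = m by norm_num [m]] at this
      have hsub : Icc ((a + a') / 2) ((b + b') / 2) ⊆ sect ν p q m u :=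
        (convex_sect m u).ordConnected.out (hav a ha a' ha') (hav b hb b' hb')
      rw [hS, hS', Real.volume_Icc, Real.volume_Icc,
        ← ENNReal.ofReal_add (by linarith) (by linarith)]
      refine le_trans ?_ (mul_le_mul_right (measure_mono hsub) 2)
      rw [Real.volume_Icc, show (2 : ℝ≥0∞) = ENNReal.ofReal 2 by norm_num,
        ← ENNReal.ofReal_mul zero_le_two]
      exact le_of_eq (congrArg ENNReal.ofReal (by ring))
    · simp [sect_empty hw hu, sect_empty hw (h := h') (hp ▸ hu)]
  have := ENNReal.toReal_mono (ENNReal.mul_ne_top (by norm_num) (hf m)) key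
  rw [ENNReal.toReal_add (hf h) (hf h'), ENNReal.toReal_mul, ENNReal.toReal_ofNat] at this
  linarith

end

end

end Vale.Agent.P227.Log3
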