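import Vale.Agent.P227.Lp.Final

/-!
# P227: the logarithmic Brunn–Minkowski inequality in dimension three

By the inequality between the means every `L_p` combination has volume at least
`|K|^(1-l) |L|^l`; as `p` tends to `0` they accumulate inside the logarithmic combination.
-/

namespace Vale.Agent.P227.Log3

open MeasureTheory Set Filter Topology Lp
open scoped RealInnerProductSpace

noncomputable section

/-- The power means of two positive numbers tend to their geometric mean. -/
theorem tendsto_mean {a b : ℝ} (ha : 0 < a) (hb : 0 < b) (l : ℝ) (hl : l ∈ Icc (0 : ℝ) 1) :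
    Tendsto (fun p : ℝ => ((1 - l) * a ^ p + l * b ^ p) ^ (1 / p)) (𝓝[>] 0)
      (𝓝 (a ^ (1 - l) * b ^ l)) := by
  set f : ℝ → ℝ := fun p => (1 - l) * a ^ p + l * b ^ p
  have hf0 : f 0 = 1 := by simp [f]
  have hfpos : ∀ p, 0 < f p := fun p => by
    have := Real.rpow_pos_of_pos ha p
    have := Real.rpow_pos_of_pos hb p
    rcases eq_or_lt_of_le hl.1 with h | h
    · simp only [f, ← h, sub_zero, one_mul, zero_mul, add_zero]; positivity
    · exact add_pos_of_nonneg_of_pos (mul_nonneg (by linarith [hl.2]) (by positivity))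
        (mul_pos h (by positivity))
  have hd : HasDerivAt (fun p => Real.log (f p)) ((1 - l) * Real.log a + l * Real.log b) 0 := by
    have h1 := ((hasDerivAt_id (0 : ℝ)).const_rpow ha).const_mul (1 - l)
    have h2 := ((hasDerivAt_id (0 : ℝ)).const_rpow hb).const_mul l
    refine ((h1.add h2).log (by simpa [f] using (hfpos 0).ne')).congr_deriv ?_
    simp
  have hs := (hd.tendsto_slope.mono_left (nhdsWithin_mono (s := Ioi (0 : ℝ)) _
    fun x hx => (Set.mem_Ioi.1 hx).ne'))
  have he : Real.exp ((1 - l) * Real.log a + l * Real.log b) = a ^ (1 - l) * b ^ l := by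
    rw [Real.exp_add, Real.rpow_def_of_pos ha, Real.rpow_def_of_pos hb]
    ring_nf
  rw [← he]
  refine ((Real.continuous_exp.tendsto _).comp hs).congr' ?_
  filter_upwards with p
  show Real.exp (slope (fun p => Real.log (f p)) 0 p) = f p ^ (1 / p)
  rw [slope_def_field, hf0, Real.log_one, sub_zero, sub_zero, Real.rpow_def_of_pos (hfpos p)]
  ring_nf

variable {K L : Set (Space 3)}

theorem isClosed_lpSum (p l : ℝ) : IsClosed (lpSum p l K L) := by
  simp only [lpSum, setOf_forall]
  exact isClosed_iInter fun u => isClosed_iInter fun _ => isClosed_le (by fun_prop) continuous_const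

theorem lpSum_subset (hK : SymmBody K) (hL : SymmBody L) {p l : ℝ} (hp : 0 < p)
    (hl : l ∈ Icc (0 : ℝ) 1) :
    lpSum p l K L ⊆ Metric.closedBall 0 (∑ k, (supportFn K (EuclideanSpace.basisFun (Fin 3) ℝ k)
      + supportFn L (EuclideanSpace.basisFun (Fin 3) ℝ k))) := fun x hx => by
  rw [mem_closedBall_zero_iff]
  conv_lhs => rw [← (EuclideanSpace.basisFun (Fin 3) ℝ).sum_repr' x]
  refine (norm_sum_le _ _).trans (Finset.sum_le_sum fun k _ => ?_)
  rw [norm_smul, (EuclideanSpace.basisFun (Fin 3) ℝ).norm_eq_one k, mul_one, Real.norm_eq_abs]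
  set e := EuclideanSpace.basisFun (Fin 3) ℝ k
  have he : ‖e‖ = 1 := (EuclideanSpace.basisFun (Fin 3) ℝ).norm_eq_one k
  have hpos : ∀ u : Space 3, ‖u‖ = 1 → 0 < supportFn K u ∧ 0 < supportFn L u := fun u hu =>
    have hne : u ≠ 0 := fun h => by rw [h, _root_.norm_zero] at hu; exact zero_ne_one hu
    ⟨supportFn_pos hK hne, supportFn_pos hL hne⟩
  have hb : ∀ u : Space 3, ‖u‖ = 1 → ⟪u, x⟫ ≤ supportFn K u + supportFn L u := fun u hu => by
    obtain ⟨hA, hB⟩ := hpos u hu
    refine (hx u hu).trans ?_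
    set A := supportFn K u
    set B := supportFn L u
    have hAB : 0 < A + B := add_pos hA hB
    calc ((1 - l) * A ^ p + l * B ^ p) ^ (1 / p) ≤ ((A + B) ^ p) ^ (1 / p) := by
          refine Real.rpow_le_rpow (add_nonneg (mul_nonneg (by linarith [hl.2]) (by positivity))
            (mul_nonneg hl.1 (by positivity))) ?_ (by positivity)
          have h1 := Real.rpow_le_rpow hA.le (show A ≤ A + B by linarith) hp.le
          have h2 := Real.rpow_le_rpow hB.le (show B ≤ A + B by linarith) hp.le
          nlinarith [hl.1, hl.2]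
      _ = A + B := by rw [← Real.rpow_mul hAB.le, mul_one_div_cancel hp.ne', Real.rpow_one]
  refine abs_le'.2 ⟨hb e he, ?_⟩
  have := hb (-e) (by rw [_root_.norm_neg]; exact he)
  rwa [inner_neg_left, supportFn_neg hK, supportFn_neg hL] at this

theorem measure_le_lpSum (hK : SymmBody K) (hL : SymmBody L) {p l : ℝ} (hp : 0 < p) (hp1 : p ≤ 1)
    (hl : l ∈ Icc (0 : ℝ) 1) :
    (volume K).toReal ^ (1 - l) * (volume L).toReal ^ l ≤ (volume (lpSum p l K L)).toReal := by
  have hv : ∀ A : Set (Space 3), 0 ≤ (volume A).toReal := fun A => ENNReal.toReal_nonneg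
  have h := lpAll p hp hp1 K L hK hL l hl
  rw [LpBMAt] at h
  push_cast at h
  refine (Real.rpow_le_rpow_iff (mul_nonneg (Real.rpow_nonneg (hv K) _)
    (Real.rpow_nonneg (hv L) _)) (hv _) (show 0 < p / 3 by positivity)).1 ?_
  rw [Real.mul_rpow (Real.rpow_nonneg (hv K) _) (Real.rpow_nonneg (hv L) _),
    ← Real.rpow_mul (hv K), mul_comm (1 - l), Real.rpow_mul (hv K), ← Real.rpow_mul (hv L),
    mul_comm l, Real.rpow_mul (hv L)]
  exact (Real.geom_mean_le_arith_mean2_weighted (by linarith [hl.2]) hl.1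
    (Real.rpow_nonneg (hv K) _) (Real.rpow_nonneg (hv L) _) (by ring)).trans h

/-- The logarithmic Brunn–Minkowski inequality in dimension three. -/
theorem logBM (hK : SymmBody K) (hL : SymmBody L) {l : ℝ} (hl : l ∈ Icc (0 : ℝ) 1) :
    LogBMAt l K L := by
  set p : ℕ → ℝ := fun n => 1 / ((n : ℝ) + 1)
  have hp : ∀ n, 0 < p n := fun n => by positivity
  have hp1 : ∀ n, p n ≤ 1 := fun n => by
    rw [div_le_one (by positivity)]
    exact le_add_of_nonneg_left n.cast_nonneg
  set Q : ℕ → Set (Space 3) := fun n => ⋃ m, lpSum (p (n + m)) l K L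
  have hQb : ∀ n, Bornology.IsBounded (Q n) := fun n =>
    Metric.isBounded_closedBall.subset (iUnion_subset fun m => lpSum_subset hK hL (hp _) hl)
  have hfin : ∀ n, volume (Q n) ≠ ⊤ := fun n => (hQb n).measure_lt_top.ne
  have hanti : Antitone Q := fun i j hij x hx => by
    obtain ⟨m, hm⟩ := mem_iUnion.1 hx
    exact mem_iUnion.2 ⟨j + m - i, by rwa [show i + (j + m - i) = j + m by omega]⟩
  have hsub : ⋂ n, Q n ⊆ logSum l K L := by
    intro x hx u hu
    have hne : u ≠ 0 := fun h => by rw [h, _root_.norm_zero] at hu; exact zero_ne_one hu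
    have hlim : Tendsto (fun n => ((1 - l) * supportFn K u ^ p n + l * supportFn L u ^ p n)
        ^ (1 / p n)) atTop (𝓝 (supportFn K u ^ (1 - l) * supportFn L u ^ l)) :=
      (tendsto_mean (supportFn_pos hK hne) (supportFn_pos hL hne) l hl).comp
        (tendsto_nhdsWithin_iff.2 ⟨tendsto_one_div_add_atTop_nhds_zero_nat,
          Eventually.of_forall hp⟩)
    refine ge_of_tendsto_of_frequently hlim (frequently_atTop.2 fun n => ?_)
    obtain ⟨m, hm⟩ := mem_iUnion.1 (mem_iInter.1 hx n)
    exact ⟨n + m, le_add_self.trans_eq (add_comm m n), hm u hu⟩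
  have hlim := tendsto_measure_iInter_atTop (μ := volume) (fun n =>
    (MeasurableSet.iUnion fun m => (isClosed_lpSum (p (n + m)) l).measurableSet).nullMeasurableSet)
    hanti ⟨0, hfin 0⟩
  have hKfin := (hK.compact.measure_lt_top (μ := (volume : Measure (Space 3)))).ne
  have hLfin := (hL.compact.measure_lt_top (μ := (volume : Measure (Space 3)))).ne
  refine le_trans ?_ (measure_mono hsub)
  refine ge_of_tendsto' hlim fun n => ?_
  rw [← ENNReal.ofReal_toReal hKfin, ← ENNReal.ofReal_toReal hLfin,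
    ENNReal.ofReal_rpow_of_nonneg ENNReal.toReal_nonneg (by linarith [hl.2]),
    ENNReal.ofReal_rpow_of_nonneg ENNReal.toReal_nonneg hl.1,
    ← ENNReal.ofReal_mul (Real.rpow_nonneg ENNReal.toReal_nonneg _)]
  refine ENNReal.ofReal_le_of_le_toReal ((measure_le_lpSum hK hL (hp n) (hp1 n) hl).trans ?_)
  exact ENNReal.toReal_mono (hfin n) (measure_mono (subset_iUnion_of_subset 0 subset_rfl))

end

end Vale.Agent.P227.Log3
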